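import Crest.Agent.X261.Bog.Sat
import Crest.Agent.X261.E0.Defs

-- ▼ part X261/Bog/Sec
section

/-!
Row 261, BOG (helper63): sections of a line field are sections of the powers of the saturation.

* `LF.Ext.hm`, `LF.Ext.mul/add/smul/prod` : calculus of extendable coefficients
* `Sat.sec`  : `F.Sec W m g` gives a holomorphic section of `L ^ m`
* `lfOf`     : the line field of a twisted form; `NoBog.lb`
-/

set_option autoImplicit false
set_option linter.unusedSectionVars false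

open Set Filter Topology
open scoped Matrix

noncomputable section

namespace Crest.Agent.X261.Bog

open Crest.Agent.R275.Geo Crest.Agent.R275.Core144 Crest.Agent.R273.Fock_243
open Crest.Agent.R273.Map_835 Crest.Agent.R273.PB_835 Crest.Agent.R275.GC293
open Crest.Agent.R281.Kd_22 Crest.Agent.R273.SteinC_794 Crest.Agent.R273.SteinD_794

variable {n : ℕ} {M : Type} [TopologicalSpace M] {A : Atl n M} {p : ℕ} {F : LF A p}
  {W : F.κ → Set M} {m m' : ℕ} {g g' : F.κ → M → ℂ} {x : M}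

namespace LF

theorem Dom.ev_closure (hW : F.Dom W) {a : F.κ} (hx : x ∈ F.U a) :
    ∀ᶠ y in 𝓝 x, y ∈ closure (W a) := by
  filter_upwards [(F.op a).mem_nhds hx] with y hy using hW.dense a hy

theorem Dom.ev_closure₂ (hW : F.Dom W) {a b : F.κ} (hx : x ∈ F.U a ∩ F.U b) :
    ∀ᶠ y in 𝓝 x, y ∈ closure (W a ∩ W b) := by
  filter_upwards [((F.op a).inter (F.op b)).mem_nhds hx] with y hy
  exact mem_closure_inter (F.op b) (hW.op a) (hW.dense a) (hW.dense b) hy

/-- the coefficients are holomorphic on `W` -/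
theorem Ext.hm (hg : F.Ext W m g) (hW : F.Dom W) {a : F.κ} (hx : x ∈ W a) : Hm A (g a) x := by
  obtain ⟨T, hT⟩ := Function.ne_iff.1 (hW.ne a x hx)
  have hU := hW.sub a hx
  obtain ⟨H, h1, h2⟩ := hg a x hU T
  refine (hm_div h1 ((F.hm a x hU T).pow m) (pow_ne_zero m hT)).congr ?_
  filter_upwards [h2, (hW.op a).mem_nhds hx, (F.hm a x hU T).ev_ne hT] with y h3 h4 h5
  rw [h3 h4, mul_div_cancel_right₀ _ (pow_ne_zero m h5)]

theorem Ext.mul (hg : F.Ext W m g) (hg' : F.Ext W m' g') :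
    F.Ext W (m + m') fun a y => g a y * g' a y := by
  intro a x hx S
  obtain ⟨H, h1, h2⟩ := hg a x hx S
  obtain ⟨H', h1', h2'⟩ := hg' a x hx S
  refine ⟨_, h1.mul h1', ?_⟩
  filter_upwards [h2, h2'] with y h3 h4 hy
  rw [h3 hy, h4 hy]; ring

theorem Ext.add (hg : F.Ext W m g) (hg' : F.Ext W m g') :
    F.Ext W m fun a y => g a y + g' a y := by
  intro a x hx S
  obtain ⟨H, h1, h2⟩ := hg a x hx S
  obtain ⟨H', h1', h2'⟩ := hg' a x hx S
  refine ⟨_, h1.add h1', ?_⟩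
  filter_upwards [h2, h2'] with y h3 h4 hy
  rw [h3 hy, h4 hy]; ring

theorem Ext.smul (c : ℂ) (hg : F.Ext W m g) : F.Ext W m fun a y => c * g a y := by
  intro a x hx S
  obtain ⟨H, h1, h2⟩ := hg a x hx S
  refine ⟨_, (Hm.const c x).mul h1, ?_⟩
  filter_upwards [h2] with y h3 hy
  rw [h3 hy]; ring

theorem ext_one : F.Ext W 0 fun _ _ => 1 := fun _ x _ _ =>
  ⟨_, Hm.const 1 x, Eventually.of_forall fun _ _ => by ring⟩

theorem Ext.prod {ι : Type*} (s : Finset ι) {G : ι → F.κ → M → ℂ} (h : ∀ k ∈ s, F.Ext W m (G k)) :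
    F.Ext W (m * s.card) fun a y => ∏ k ∈ s, G k a y := by
  classical
  induction s using Finset.induction_on with
  | empty => simpa using ext_one
  | insert k s hk ih =>
    simp only [Finset.prod_insert hk, Finset.card_insert_of_notMem hk]
    rw [mul_add_one, add_comm]
    exact (h k (Finset.mem_insert_self k s)).mul (ih fun l hl => h l (Finset.mem_insert_of_mem hl))

theorem Ext.mono {W' : F.κ → Set M} (hg : F.Ext W m g) (h : ∀ a, W' a ⊆ W a) : F.Ext W' m g := by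
  intro a x hx S
  obtain ⟨H, h1, h2⟩ := hg a x hx S
  exact ⟨H, h1, h2.mono fun y h3 hy => h3 (h a hy)⟩

theorem Sec.mono {W' : F.κ → Set M} (hg : F.Sec W m g) (h : ∀ a, W' a ⊆ W a) : F.Sec W' m g :=
  ⟨hg.ext.mono h, fun a b x hx => hg.tr a b x ⟨h a hx.1, h b hx.2⟩⟩

/-- the largest domain -/
theorem dom_ne (F : LF A p) : F.Dom fun a => {x | x ∈ F.U a ∧ F.τ a x ≠ 0} where
  op a := by
    rw [isOpen_iff_mem_nhds]
    rintro x ⟨h1, h2⟩
    obtain ⟨T, hT⟩ := Function.ne_iff.1 h2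
    filter_upwards [(F.op a).mem_nhds h1, (F.hm a x h1 T).ev_ne hT] with y h3 h4
    exact ⟨h3, fun h5 => h4 (by rw [h5]; rfl)⟩
  sub a x hx := hx.1
  dense a x hx := by
    rw [mem_closure_iff_frequently]
    have h1 : ∃ᶠ y in 𝓝 x, F.τ a y ≠ 0 := fun h => F.nf a x hx (h.mono fun y hy => not_not.1 hy)
    exact (h1.and_eventually ((F.op a).mem_nhds hx)).mono fun y hy => ⟨hy.2, hy.1⟩
  ne a x hx := hx.2

/-- shrinking a domain -/
theorem Dom.inter (hW : F.Dom W) {V : F.κ → Set M} (hV : ∀ a, IsOpen (V a))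
    (hd : ∀ a, F.U a ⊆ closure (V a)) : F.Dom fun a => W a ∩ V a where
  op a := (hW.op a).inter (hV a)
  sub a _ hx := hW.sub a hx.1
  dense a _ hx := mem_closure_inter (F.op a) (hW.op a) (hW.dense a) (hd a) ⟨hx, hx⟩
  ne a x hx := hW.ne a x hx.1

end LF

namespace Sat

variable (S : Sat F)

theorem hm_e {i : S.A'.ι} (hx : x ∈ (S.A'.e i).source) (T : FI n) :
    Hm S.A' (fun y => S.e i y T) x := hm_of_holAt (S.hol i T) isOpen_univ hx (mem_univ x)

theorem tp_e {i j : S.A'.ι} (hx : x ∈ (S.A'.e i).source ∩ (S.A'.e j).source) :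
    tp S.A' i j x (S.e j x) = S.L.g i j x • S.e i x := by
  rw [S.tr i j x hx, smul_smul, mul_inv_cancel₀ (LB.ne_zero _ i j x), one_smul]

theorem τ_eq {i : S.A'.ι} {a : F.κ} (hx : x ∈ (S.A'.e i).source ∩ F.U a) :
    F.τ a x = S.c i a x • tq A S.A' (F.ch a) i x (S.e i x) := by
  rw [← tq_smul, ← S.c_eq i a x hx, tq_inv S.bih'.toHolMap S.bih.toHolMap (F.sub a hx.2) hx.1]

theorem ce_ne {i : S.A'.ι} {a : F.κ} (hx : x ∈ (S.A'.e i).source ∩ F.U a) (h0 : F.τ a x ≠ 0) :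
    S.c i a x ≠ 0 ∧ S.e i x ≠ 0 := by
  have h1 := tq_ne S.bih.toHolMap S.bih'.toHolMap hx.1 (F.sub a hx.2) h0
  rw [S.c_eq i a x hx] at h1
  exact ⟨left_ne_zero_of_smul h1, right_ne_zero_of_smul h1⟩

theorem c_tr {i j : S.A'.ι} {a : F.κ} (hi : x ∈ (S.A'.e i).source) (hj : x ∈ (S.A'.e j).source)
    (ha : x ∈ F.U a) (h0 : F.τ a x ≠ 0) : S.c i a x = S.L.g i j x * S.c j a x := by
  have h1 := S.c_eq i a x ⟨hi, ha⟩
  rw [← tq_tq (holMap_id S.A') S.bih.toHolMap hi hj (F.sub a ha), S.c_eq j a x ⟨hj, ha⟩, tq_smul,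
    ← tp_eq, S.tp_e ⟨hi, hj⟩, smul_smul] at h1
  rw [mul_comm]
  exact (smul_left_injective ℂ (S.ce_ne ⟨hi, ha⟩ h0).2 h1).symm

theorem c_tr' {i : S.A'.ι} {a b : F.κ} (hi : x ∈ (S.A'.e i).source) (ha : x ∈ F.U a)
    (hb : x ∈ F.U b) (h0 : F.τ a x ≠ 0) {l : ℂ}
    (hl : tp A (F.ch a) (F.ch b) x (F.τ b x) = l • F.τ a x) : S.c i b x = l * S.c i a x := by
  have h1 := S.c_eq i b x ⟨hi, hb⟩
  rw [← tq_tq S.bih.toHolMap (holMap_id A) hi (F.sub a ha) (F.sub b hb), ← tp_eq, hl, tq_smul,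
    S.c_eq i a x ⟨hi, ha⟩, smul_smul] at h1
  exact (smul_left_injective ℂ (S.ce_ne ⟨hi, ha⟩ h0).2 h1).symm

/-- local extension of `g a · (c i a) ^ m` -/
theorem exists_germ (hW : F.Dom W) (hg : F.Ext W m g) {i : S.A'.ι} {a : F.κ}
    (hx : x ∈ (S.A'.e i).source ∩ F.U a) :
    ∃ h : M → ℂ, Hm S.A' h x ∧ ∀ᶠ y in 𝓝 x, y ∈ W a → h y = g a y * S.c i a y ^ m := by
  have hb := S.bih.toHolMap
  have hb' := S.bih'.toHolMap
  set u : M → FI n → ℂ := fun y => tq A S.A' (F.ch a) i y (S.e i y) with hu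
  have hum : ∀ T, Hm A (fun y => u y T) x :=
    hm_tq hb' (F.sub a hx.2) hx.1 fun T => hm_change hb' (S.hm_e hx.1 T)
  have huc : Cop A (fun T y => u y T) x := cop_tq hb' hb (F.sub a hx.2) hx.1 (S.cop i x hx.1)
  choose H hH hHe using hg a x hx.2
  have hov : ∀ᶠ y in 𝓝 x, y ∈ (S.A'.e i).source ∩ F.U a :=
    ((S.A'.e i).open_source.inter (F.op a)).mem_nhds hx
  have hHu : ∀ᶠ y in 𝓝 x, y ∈ W a → ∀ T, H T y = g a y * S.c i a y ^ m * u y T ^ m := by
    filter_upwards [eventually_all.2 hHe, hov] with y h1 h2 hy T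
    rw [h1 T hy, S.τ_eq h2, Pi.smul_apply, smul_eq_mul, mul_pow, mul_assoc]
  obtain ⟨h, h1, h2⟩ := div_cop (A := A) (x := x) (e := fun y T => u y T ^ m) (h := fun y T => H T y)
    (fun T => (hum T).pow m) hH (cop_pow' hum huc m) (by
      refine eventually_all.2 fun T => eventually_all.2 fun T' => ?_
      refine ev_eq_of_dense (hm_ev_cont ((hH T).mul ((hum T').pow m)))
        (hm_ev_cont ((hH T').mul ((hum T).pow m))) (hW.ev_closure hx.2) ?_
      filter_upwards [hHu] with y h3 hy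
      rw [h3 hy T, h3 hy T']; ring)
  refine ⟨h, hm_change hb h1, ?_⟩
  filter_upwards [h2, hHu, hov] with y h3 h4 h5 hy
  obtain ⟨T, hT⟩ := Function.ne_iff.1 (hW.ne a y hy)
  rw [S.τ_eq h5] at hT
  have h6 : u y T ≠ 0 := right_ne_zero_of_mul hT
  have h7 := congrFun h3 T
  simp only [Pi.smul_apply, smul_eq_mul] at h7
  rw [h4 hy T] at h7
  exact (mul_right_cancel₀ (pow_ne_zero m h6) h7).symm

/-- `h` represents the section near `x` in the chart `i` -/
def Rep (W : F.κ → Set M) (m : ℕ) (g : F.κ → M → ℂ) (i : S.A'.ι) (x : M) (h : M → ℂ) : Prop :=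
  Hm S.A' h x ∧ ∃ a, x ∈ F.U a ∧ ∀ᶠ y in 𝓝 x, y ∈ W a → h y = g a y * S.c i a y ^ m

theorem Rep.ev {i : S.A'.ι} {h : M → ℂ} (hh : S.Rep W m g i x h) :
    ∀ᶠ y in 𝓝 x, S.Rep W m g i y h := by
  obtain ⟨h1, a, h2, h3⟩ := hh
  filter_upwards [h1.ev, (F.op a).mem_nhds h2, eventually_eventually_nhds.2 h3] with y a1 a2 a3
  exact ⟨a1, a, a2, a3⟩

theorem Rep.uniq (hW : F.Dom W) (hg : F.Sec W m g) {i : S.A'.ι} (hx : x ∈ (S.A'.e i).source)
    {h h' : M → ℂ} (hh : S.Rep W m g i x h) (hh' : S.Rep W m g i x h') : h =ᶠ[𝓝 x] h' := by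
  obtain ⟨h1, a, h2, h3⟩ := hh
  obtain ⟨h1', b, h2', h3'⟩ := hh'
  refine ev_eq_of_dense (hm_ev_cont h1) (hm_ev_cont h1') (hW.ev_closure₂ ⟨h2, h2'⟩) ?_
  filter_upwards [h3, h3', (S.A'.e i).open_source.mem_nhds hx] with y a1 a2 a3 hy
  have ha := hW.sub a hy.1
  have hb := hW.sub b hy.2
  obtain ⟨l, hl⟩ := (F.par a b y ⟨ha, hb⟩).symm.exists_smul (hW.ne a y hy.1)
  rw [a1 hy.1, a2 hy.2, hg.tr a b y hy l hl, S.c_tr' a3 ha hb (hW.ne a y hy.1) hl]
  ring

/-- **sections of the line field are sections of the powers of the saturation** -/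
theorem sec (hW : F.Dom W) (hg : F.Sec W m g) : ∃ s : S.A'.ι → M → ℂ, IsHS (S.L ^ m) univ s ∧
    ∀ i a, ∀ x ∈ (S.A'.e i).source ∩ W a, s i x = g a x * S.c i a x ^ m := by
  classical
  have hex : ∀ i, ∀ x ∈ (S.A'.e i).source, ∃ h, S.Rep W m g i x h := by
    intro i x hx
    obtain ⟨a, ha⟩ := F.cov x
    obtain ⟨h, h1, h2⟩ := S.exists_germ hW hg.ext ⟨hx, ha⟩
    exact ⟨h, h1, a, ha, h2⟩
  let s : S.A'.ι → M → ℂ := fun i x =>
    if hx : x ∈ (S.A'.e i).source then (hex i x hx).choose x else 0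
  have hs : ∀ i, ∀ x ∈ (S.A'.e i).source, ∀ h, S.Rep W m g i x h → s i =ᶠ[𝓝 x] h := by
    intro i x hx h hh
    filter_upwards [Rep.ev S hh, (S.A'.e i).open_source.mem_nhds hx] with y h1 h2
    simp only [s, dif_pos h2]
    exact (Rep.uniq S hW hg h2 (hex i y h2).choose_spec h1).self_of_nhds
  refine ⟨s, ⟨fun i => holAt_of_hm fun x hx _ => ?_, fun i x hx => dif_neg hx,
    fun i j x hx _ => ?_⟩, fun i a x hx => ?_⟩
  · obtain ⟨h, hh⟩ := hex i x hx
    exact hh.1.congr (hs i x hx h hh).symm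
  · obtain ⟨h, h1, a, h2, h3⟩ := hex j x hx.2
    have hG : Hm S.A' (S.L.g i j) x := hm_of_holAt (S.L.hol i j) (S.A'.e j).open_source hx.1 hx.2
    have h4 : S.Rep W m g i x fun y => S.L.g i j y ^ m * h y := by
      refine ⟨(hG.pow m).mul h1, a, h2, ?_⟩
      filter_upwards [h3, (S.A'.e i).open_source.mem_nhds hx.1,
        (S.A'.e j).open_source.mem_nhds hx.2] with y a1 a2 a3 hy
      rw [a1 hy, S.c_tr a2 a3 (hW.sub a hy) (hW.ne a y hy)]
      ring
    rw [(hs i x hx.1 _ h4).self_of_nhds, (hs j x hx.2 h ⟨h1, a, h2, h3⟩).self_of_nhds,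
      Crest.Agent.R273.HM_333.LB_pow_g]
  · obtain ⟨h, h1, h2⟩ := S.exists_germ hW hg.ext ⟨hx.1, hW.sub a hx.2⟩
    rw [(hs i x hx.1 h ⟨h1, a, hW.sub a hx.2, h2⟩).self_of_nhds, h2.self_of_nhds hx.2]

end Sat

/-! ### the line field of a twisted form -/

/-- `e` is a holomorphic `p`-form with values in `L⁻¹` -/
structure TOm (L : LB A) (p : ℕ) (e : A.ι → M → FI n → ℂ) : Prop where
  hol : ∀ i S, HolAt A i univ (fun x => e i x S)
  deg : ∀ i, ∀ x ∈ (A.e i).source, ∀ S, e i x S ≠ 0 → S.card = p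
  tr : ∀ i j, ∀ x ∈ (A.e i).source ∩ (A.e j).source,
    e i x = (L.g i j x)⁻¹ • tp A i j x (e j x)


variable {L : LB A} {e : A.ι → M → FI n → ℂ}

theorem TOm.hm (he : TOm L p e) {i : A.ι} (hx : x ∈ (A.e i).source) (T : FI n) :
    Hm A (fun y => e i y T) x := hm_of_holAt (he.hol i T) isOpen_univ hx (mem_univ x)

theorem TOm.tp_e (he : TOm L p e) {i j : A.ι} (hx : x ∈ (A.e i).source ∩ (A.e j).source) :
    tp A i j x (e j x) = L.g i j x • e i x := by
  rw [he.tr i j x hx, smul_smul, mul_inv_cancel₀ (LB.ne_zero _ i j x), one_smul]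

/-- identity theorem for twisted forms -/
theorem TOm.not_flat [PreconnectedSpace M] (he : TOm L p e)
    (h0 : ∃ i, ∃ x ∈ (A.e i).source, e i x ≠ 0) (i : A.ι) (hx : x ∈ (A.e i).source) :
    ¬ ∀ᶠ y in 𝓝 x, e i y = 0 := by
  let Z : Set M := {x | ∃ i, x ∈ (A.e i).source ∧ ∀ᶠ y in 𝓝 x, e i y = 0}
  have hZ : ∀ {i : A.ι} {x : M}, x ∈ (A.e i).source → x ∈ Z → ∀ᶠ y in 𝓝 x, e i y = 0 := by
    rintro i x hx ⟨j, hj, h⟩
    filter_upwards [h, (A.e i).open_source.mem_nhds hx, (A.e j).open_source.mem_nhds hj]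
      with y h1 h2 h3
    rw [he.tr i j y ⟨h2, h3⟩, h1, tp_eq, tq_zero, smul_zero]
  have hZo : IsOpen Z := by
    rw [isOpen_iff_mem_nhds]
    rintro x ⟨j, hj, h⟩
    filter_upwards [eventually_eventually_nhds.2 h, (A.e j).open_source.mem_nhds hj] with y h1 h2
    exact ⟨j, h2, h1⟩
  have hZc : IsClosed Z := by
    rw [← isOpen_compl_iff, isOpen_iff_mem_nhds]
    intro x hx
    obtain ⟨j, hj⟩ := A.cover x
    obtain ⟨T, hT⟩ := exists_not_flat (τ := e j) fun h => hx ⟨j, hj, h⟩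
    filter_upwards [ev_not_flat (he.hm hj T) hT, (A.e j).open_source.mem_nhds hj] with y h1 h2 hy
    exact h1 ((hZ h2 hy).mono fun w hw => by rw [hw]; rfl)
  intro hcon
  have h1 : Z = univ := IsClopen.eq_univ ⟨hZc, hZo⟩ ⟨x, i, hx, hcon⟩
  obtain ⟨j, y, hy, h2⟩ := h0
  exact h2 (hZ hy (h1 ▸ mem_univ y)).self_of_nhds

/-- the line field of a twisted form -/
def lfOf (he : TOm L p e) (h0 : ∀ i, ∀ x ∈ (A.e i).source, ¬ ∀ᶠ y in 𝓝 x, e i y = 0) :
    LF A p where
  κ := A.ι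
  ch := id
  U i := (A.e i).source
  op i := (A.e i).open_source
  sub _ := subset_rfl
  cov := A.cover
  τ := e
  hm _ _ hx T := he.hm hx T
  deg := he.deg
  nf := h0
  par i j x hx := by
    rw [id, id, he.tp_e hx]
    exact (par_smul _ _).symm

theorem sec_lfOf (he : TOm L p e) (h0 : ∀ i, ∀ x ∈ (A.e i).source, ¬ ∀ᶠ y in 𝓝 x, e i y = 0)
    {W : A.ι → Set M} (hW : (lfOf he h0).Dom W) {s : A.ι → M → ℂ} (hs : IsHS (L ^ m) univ s) :
    (lfOf he h0).Sec W m s := by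
  refine ⟨fun i x hx T => ⟨fun y => s i y * e i y T ^ m,
    (hm_of_isHS hs hx).mul ((he.hm hx T).pow m), Eventually.of_forall fun _ _ => rfl⟩,
    fun (i : A.ι) (j : A.ι) x hx c hc => ?_⟩
  have hx' : x ∈ (A.e i).source ∩ (A.e j).source := ⟨hW.sub i hx.1, hW.sub j hx.2⟩
  have h1 : L.g i j x • e i x = c • e i x := (he.tp_e hx').symm.trans hc
  rw [hs.tr i j x hx' (mem_univ x), Crest.Agent.R273.HM_333.LB_pow_g,
    smul_left_injective ℂ (hW.ne i x hx.1) h1]

end Crest.Agent.X261.Bog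
end
end

-- ▼ part X261/Bog/Use

/-!
Row 261, BOG (helper63): `NoBog` and line bundles.

* `df` calculus for germs, `li_change`, `li_wr_iff`
* `NoBog.lb`       : the line bundle form (Wronskians `E0.Wr`)
* `LBNo A`, `noBog_of_lbNo` : `NoBog` from the line bundle form on all finer atlases
-/

set_option autoImplicit false
set_option linter.unusedSectionVars false

open Set Filter Topology
open scoped Matrix

noncomputable section

namespace Crest.Agent.X261.Bog

open Crest.Agent.R275.Geo Crest.Agent.R275.Core144 Crest.Agent.R273.Fock_243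
open Crest.Agent.R273.Map_835 Crest.Agent.R273.PB_835 Crest.Agent.R275.GC293
open Crest.Agent.R281.Kd_22 Crest.Agent.R273.SteinC_794 Crest.Agent.R273.SteinD_794
open Crest.Agent.R275.OmT75 (dl dj)
open Crest.Agent.X261.E0 (Wr Cmp)

variable {n : ℕ} {M : Type} [TopologicalSpace M] {A A' : Atl n M} {x : M} {i : A.ι}
  {f g : M → ℂ}

/-! ### differentials of germs -/

theorem dl_eq_df (hf : Hm A f x) (hx : x ∈ (A.e i).source) (a : Fin n) :
    dl A i a f x = df A i f x (EuclideanSpace.single a 1) := by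
  have h1 := (hf i hx).differentiableAt
  have h3 : (EuclideanSpace.single a Complex.I : Cn n) =
      Complex.I • EuclideanSpace.single a (1 : ℂ) := by
    ext b
    by_cases hb : b = a <;> simp [hb]
  unfold dl dj df
  rw [h1.fderiv_restrictScalars ℝ, h3]
  simp only [ContinuousLinearMap.coe_restrictScalars', map_smul, smul_eq_mul]
  ring_nf
  simp
  ring

theorem df_mul' (hf : Hm A f x) (hg : Hm A g x) (hx : x ∈ (A.e i).source) :
    df A i (fun y => f y * g y) x = f x • df A i g x + g x • df A i f x := by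
  unfold df
  rw [fderiv_fun_mul (hf i hx).differentiableAt (hg i hx).differentiableAt, (A.e i).left_inv hx]

theorem df_sub' (hf : Hm A f x) (hg : Hm A g x) (hx : x ∈ (A.e i).source) :
    df A i (fun y => f y - g y) x = df A i f x - df A i g x :=
  fderiv_fun_sub (hf i hx).differentiableAt (hg i hx).differentiableAt

theorem df_const (c : ℂ) : df A i (fun _ => c) x = 0 := by
  unfold df
  simp

theorem df_div (hf : Hm A f x) (hg : Hm A g x) (hx : x ∈ (A.e i).source) (h0 : g x ≠ 0) :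
    g x • df A i f x - f x • df A i g x = g x ^ 2 • df A i (fun y => f y / g y) x := by
  have h1 : f =ᶠ[𝓝 x] fun y => f y / g y * g y := by
    filter_upwards [hg.ev_ne h0] with y hy
    rw [div_mul_cancel₀ _ hy]
  rw [df_congr hx h1, df_mul' (hm_div hf hg h0) hg hx, smul_add, smul_smul, smul_smul,
    mul_div_cancel₀ _ h0, pow_two]
  abel

theorem cont_df (hf : Hm A f x) (hx : x ∈ (A.e i).source) : ContinuousAt (df A i f) x :=
  ContinuousAt.comp (g := fderiv ℂ fun z => f ((A.e i).symm z)) (f := A.e i)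
    (hf i hx).fderiv.continuousAt ((A.e i).continuousAt hx)

theorem df_flat (hx : x ∈ (A.e i).source) (h : ∀ᶠ y in 𝓝 x, f y = 0) : df A i f x = 0 := by
  rw [df_congr (g := fun _ => 0) hx h, df_const]

theorem df_change (h : HolMap A' A id) {j : A'.ι} (hj : x ∈ (A'.e j).source)
    (hi : x ∈ (A.e i).source) (hf : Hm A f x) :
    df A' j f x = (df A i f x).comp (fderiv ℂ (rd A' A id j i) (A'.e j x)) := by
  have hmem : A'.e j x ∈ dm A' A id j i := mem_dm hj hi
  have hval : rd A' A id j i (A'.e j x) = A.e i x := by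
    simp only [Crest.Agent.R273.Map_835.rd, id, (A'.e j).left_inv hj]
  have he : (fun w => f ((A'.e j).symm w)) =ᶠ[𝓝 (A'.e j x)]
      (fun w => f ((A.e i).symm w)) ∘ rd A' A id j i := by
    filter_upwards [(h.isOpen_dm j i).mem_nhds hmem] with z hz
    have hz2 : (A'.e j).symm z ∈ (A.e i).source := hz.2
    simp only [Function.comp, Crest.Agent.R273.Map_835.rd, id, (A.e i).left_inv hz2]
  unfold df
  rw [he.fderiv_eq, fderiv_comp _ (by rw [hval]; exact (hf i hi).differentiableAt) (h.diffAt hmem),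
    hval]

/-- independence of differentials does not depend on the chart -/
theorem li_change (h : LBih A' A id) {j : A'.ι} (hj : x ∈ (A'.e j).source)
    (hi : x ∈ (A.e i).source) {ι : Type*} [Fintype ι] {z : ι → M → ℂ} (hz : ∀ k, Hm A (z k) x)
    (hli : LinearIndependent ℂ fun k => df A i (z k) x) :
    LinearIndependent ℂ fun k => df A' j (z k) x := by
  rw [Fintype.linearIndependent_iff] at hli ⊢
  intro c hc
  refine hli c ?_
  have hs : Function.Surjective (fderiv ℂ (rd A' A id j i) (A'.e j x)) :=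
    LinearMap.surjective_of_injective (f := (fderiv ℂ (rd A' A id j i) (A'.e j x)).toLinearMap)
      (h.inj (mem_dm hj hi))
  ext w
  obtain ⟨v, rfl⟩ := hs w
  have := DFunLike.congr_fun hc v
  simpa only [df_change h.toHolMap hj hi (hz _), sum_apply, smul_apply,
    ContinuousLinearMap.comp_apply, zero_apply] using this

/-- coordinates of a covector -/
def co (n : ℕ) : (Cn n →L[ℂ] ℂ) →ₗ[ℂ] (Fin n → ℂ) where
  toFun φ a := φ (EuclideanSpace.single a 1)
  map_add' _ _ := rfl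
  map_smul' _ _ := rfl

theorem co_apply (φ : Cn n →L[ℂ] ℂ) (a : Fin n) : co n φ a = φ (EuclideanSpace.single a 1) := rfl

theorem ker_co : LinearMap.ker (co n) = ⊥ := by
  rw [LinearMap.ker_eq_bot']
  intro φ h
  ext v
  rw [clm_single φ v]
  refine Finset.sum_eq_zero fun a _ => ?_
  rw [← co_apply, h, Pi.zero_apply, mul_zero]

theorem li_co_iff {ι : Type*} {φ : ι → Cn n →L[ℂ] ℂ} :
    (LinearIndependent ℂ fun k => co n (φ k)) ↔ LinearIndependent ℂ φ :=
  ⟨fun h => LinearIndependent.of_comp (co n) h, fun h => h.map' (co n) ker_co⟩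

theorem li_smul_iff {ι V : Type*} [AddCommGroup V] [Module ℂ V] {v : ι → V} {c : ℂ} (hc : c ≠ 0) :
    (LinearIndependent ℂ fun k => c • v k) ↔ LinearIndependent ℂ v :=
  (LinearEquiv.smulOfNeZero ℂ V c hc).toLinearMap.linearIndependent_iff (LinearEquiv.ker _)

theorem Wr_eq {s t : A.ι → M → ℂ} (hs : Hm A (s i) x) (ht : Hm A (t i) x)
    (hx : x ∈ (A.e i).source) :
    Wr A s t i x = co n (t i x • df A i (s i) x - s i x • df A i (t i) x) := by
  funext a
  rw [Wr, dl_eq_df hs hx, dl_eq_df ht hx]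
  rfl

theorem li_wr_iff {ι : Type*} {s : ι → A.ι → M → ℂ} {t : A.ι → M → ℂ} (hs : ∀ k, Hm A (s k i) x)
    (ht : Hm A (t i) x) (hx : x ∈ (A.e i).source) (h0 : t i x ≠ 0) :
    (LinearIndependent ℂ fun k => Wr A (s k) t i x) ↔
      LinearIndependent ℂ fun k => df A i (fun y => s k i y / t i y) x := by
  simp only [fun k => Wr_eq (hs k) ht hx, fun k => df_div (hs k) ht hx h0]
  rw [li_co_iff]
  exact li_smul_iff (pow_ne_zero 2 h0)

theorem li_ev {ι : Type*} [Finite ι] {V : Type*} [NormedAddCommGroup V] [NormedSpace ℂ V]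
    {v : ι → M → V} (hv : ∀ k, ContinuousAt (v k) x) (h : LinearIndependent ℂ fun k => v k x) :
    ∀ᶠ y in 𝓝 x, LinearIndependent ℂ fun k => v k y :=
  (continuousAt_pi.2 hv : ContinuousAt (fun y k => v k y) x).eventually h.eventually

theorem cont_Wr {s t : A.ι → M → ℂ} (hs : Hm A (s i) x) (ht : Hm A (t i) x)
    (hx : x ∈ (A.e i).source) : ContinuousAt (Wr A s t i) x := by
  have h1 : ContinuousAt (fun y => co n (t i y • df A i (s i) y - s i y • df A i (t i) y)) x :=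
    (co n).continuous_of_finiteDimensional.continuousAt.comp
      ((ht.cont.smul (cont_df hs hx)).sub (hs.cont.smul (cont_df ht hx)))
  refine h1.congr ?_
  filter_upwards [hs.ev, ht.ev, (A.e i).open_source.mem_nhds hx] with y a1 a2 a3
  rw [Wr_eq a1 a2 a3]

theorem frequently_ne (h : ¬ ∀ᶠ y in 𝓝 x, f y = 0) : ∃ᶠ y in 𝓝 x, f y ≠ 0 :=
  fun h' => h (h'.mono fun _ hy => not_not.1 hy)

/-! ### the line bundle form -/

variable {p m : ℕ} {L : LB A} {e : A.ι → M → FI n → ℂ}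

theorem tOm_of (he : E0.TOm L p e) : TOm L p e :=
  ⟨he.hol, fun i x _ S hS => by_contra fun h => hS (he.deg i x S h), he.tr⟩

theorem Sat.tOm' {F : LF A p} (S : Sat F) : E0.TOm S.L p S.e :=
  ⟨S.hol, S.off, fun i x T hT => by_contra fun h => hT (S.deg i x T h), S.tr⟩

theorem NoBog.lb' (h : NoBog A) (hp : 1 ≤ p) (he : TOm L p e)
    (h0 : ∀ i, ∀ x ∈ (A.e i).source, ¬ ∀ᶠ y in 𝓝 x, e i y = 0) {s : Fin (p + 1) → A.ι → M → ℂ}
    (hs : ∀ k, IsHS (L ^ m) univ (s k)) (hx : x ∈ (A.e i).source) :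
    ¬ LinearIndependent ℂ fun k : Fin p => Wr A (s k.succ) (s 0) i x := by
  intro hli
  have hm : ∀ k, Hm A (s k i) x := fun k => hm_of_isHS (hs k) hx
  have h1 : ¬ ∀ᶠ y in 𝓝 x, s 0 i y = 0 := by
    intro hcon
    refine hli.ne_zero ⟨0, hp⟩ ?_
    rw [Wr_eq (hm _) (hm 0) hx, df_flat hx hcon, hcon.self_of_nhds]
    simp
  obtain ⟨T, hT⟩ := exists_not_flat (h0 i x hx)
  have h2 : ¬ ∀ᶠ y in 𝓝 x, s 0 i y * e i y T = 0 := fun hcon =>
    (mul_flat (hm 0) (he.hm hx T) hcon).elim h1 hT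
  obtain ⟨y, h3, h4, h5⟩ := ((frequently_ne h2).and_eventually
    ((li_ev (fun k => cont_Wr (hm _) (hm 0) hx) hli).and ((A.e i).open_source.mem_nhds hx))).exists
  have h6 : s 0 i y ≠ 0 := left_ne_zero_of_mul h3
  have h7 : e i y ≠ 0 := fun h8 => right_ne_zero_of_mul h3 (by rw [h8]; rfl)
  refine h p hp (lfOf he h0) _ m s (lfOf he h0).dom_ne
    (fun k => sec_lfOf he h0 (lfOf he h0).dom_ne (hs k)) i y ⟨h5, h7⟩ h6 ?_
  exact (li_wr_iff (fun k => hm_of_isHS (hs _) h5) (hm_of_isHS (hs 0) h5) h5 h6).1 h4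

/-- **line bundle form of `NoBog`** -/
theorem NoBog.lb [PreconnectedSpace M] (h : NoBog A) (hp : 1 ≤ p) (he : E0.TOm L p e)
    (h0 : ∃ i x, e i x ≠ 0) {s : Fin (p + 1) → A.ι → M → ℂ}
    (hs : ∀ k, IsHS (L ^ m) univ (s k)) (hx : x ∈ (A.e i).source) :
    ¬ LinearIndependent ℂ fun k : Fin p => Wr A (s k.succ) (s 0) i x := by
  refine h.lb' hp (tOm_of he) (fun j y hy => (tOm_of he).not_flat ?_ j hy) hs hx
  obtain ⟨j, y, h1⟩ := h0
  exact ⟨j, y, by_contra fun h2 => h1 (he.off j y h2), h1⟩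

/-- a nonzero maximal minor gives independence -/
theorem li_of_minor {v : Fin p → Fin n → ℂ} (r : Fin p → Fin n)
    (h : (Matrix.of fun k l : Fin p => v k (r l)).det ≠ 0) : LinearIndependent ℂ v :=
  LinearIndependent.of_comp (LinearMap.funLeft ℂ ℂ r)
    (Matrix.linearIndependent_rows_of_det_ne_zero h)

/-! ### from line bundles on finer atlases -/

/-- the line bundle form on all compatible finite atlases -/
def LBNo (A : Atl n M) : Prop :=
  ∀ B : Atl n M, Cmp A B → Finite B.ι → Nonempty (Part B) → ∀ p : ℕ, 1 ≤ p →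
    ∀ (L : LB B) (e : B.ι → M → FI n → ℂ), E0.TOm L p e → (∃ i x, e i x ≠ 0) → ∀ m : ℕ, 0 < m →
      ∀ s : Fin (p + 1) → B.ι → M → ℂ, (∀ k, IsHS (L ^ m) univ (s k)) →
        ∀ i, ∀ x ∈ (B.e i).source,
          ¬ LinearIndependent ℂ fun k : Fin p => Wr B (s k.succ) (s 0) i x

theorem LBNo.cmp (h : LBNo A) (hB : Cmp A A') : LBNo A' := fun C hC => h C (hB.trans hC)

theorem noBog_of_lbNo [CompactSpace M] [T2Space M] [ConnectedSpace M] (h : LBNo A) : NoBog A := by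
  intro p hp F W m g hW hg a x hx h0 hli
  obtain ⟨S⟩ := exists_sat F
  choose s hs hsg using fun k => S.sec hW (hg k)
  obtain ⟨i, hi⟩ := S.A'.cover x
  have hU := hW.sub a hx
  have hc := S.ce_ne ⟨hi, hU⟩ (hW.ne a x hx)
  have hs0 : s 0 i x ≠ 0 := by
    rw [hsg 0 i a x ⟨hi, hx⟩]
    exact mul_ne_zero h0 (pow_ne_zero m hc.1)
  have hm : ∀ k, Hm S.A' (s k i) x := fun k => hm_of_isHS (hs k) hi
  have h1 : LinearIndependent ℂ fun k : Fin p =>
      df S.A' i (fun y => s k.succ i y / s 0 i y) x := by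
    have h2 := li_change S.bih hi (F.sub a hU)
      (fun k => hm_div ((hg _).ext.hm hW hx) ((hg 0).ext.hm hW hx) h0) hli
    convert h2 using 2 with k
    refine df_congr hi ?_
    filter_upwards [((S.A'.e i).open_source.inter (hW.op a)).mem_nhds ⟨hi, hx⟩] with y hy
    rw [hsg _ i a y hy, hsg 0 i a y hy,
      mul_div_mul_right _ _ (pow_ne_zero m (S.ce_ne ⟨hy.1, hW.sub a hy.2⟩ (hW.ne a y hy.2)).1)]
  rcases Nat.eq_zero_or_pos m with rfl | hm0
  · refine h1.ne_zero ⟨0, hp⟩ ?_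
    simp only [pow_zero] at hs
    obtain ⟨c, hc⟩ := Crest.Agent.R273.HolF_578.isHS_one_const (hs (Fin.succ ⟨0, hp⟩))
    obtain ⟨c', hc'⟩ := Crest.Agent.R273.HolF_578.isHS_one_const (hs 0)
    rw [df_congr (g := fun _ => c / c') hi, df_const]
    filter_upwards [(S.A'.e i).open_source.mem_nhds hi] with y hy
    rw [hc i y hy, hc' i y hy]
  · exact h S.A' (E0.cmp_of_lBih S.bih' S.bih) S.fin S.part p hp S.L S.e S.tOm' ⟨i, x, hc.2⟩ m hm0
      s hs i x hi ((li_wr_iff (fun k => hm _) (hm 0) hi hs0).2 h1)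

end Crest.Agent.X261.Bog
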